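import Vale.Agent.P066.Theta.Uncond
import Vale.Agent.P066.Theta.H615.Fact

/-!
# The end of `IsCluster → AttrPos`: from the logarithmic derivative to the wall function
-/

set_option autoImplicit false

open Finset

namespace Vale.Agent.P066.Theta.H370

noncomputable section

variable {r : ℕ} {B : Matrix (Fin r) (Fin r) ℤ}

theorem v_pow_ne_one {n : ℕ} (hn : n ≠ 0) : v ^ n ≠ 1 := by
  intro h
  unfold v at h
  have h1 : (algebraMap (Polynomial ℚ) (RatFunc ℚ)) (Polynomial.X ^ n) =
      (algebraMap (Polynomial ℚ) (RatFunc ℚ)) 1 := by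
    rw [map_pow, map_one, RatFunc.algebraMap_X]
    exact h
  have h2 := RatFunc.algebraMap_injective ℚ h1
  have h3 := congrArg Polynomial.natDegree h2
  rw [Polynomial.natDegree_X_pow, Polynomial.natDegree_one] at h3
  exact hn h3

theorem v_pow_sub_one_ne {n : ℕ} (hn : n ≠ 0) : v ^ n - 1 ≠ 0 := sub_ne_zero.2 (v_pow_ne_one hn)

theorem psi_zero : psi 0 = 1 := by simp [psi]

theorem psi_succ (m : ℕ) : v ^ (2 * (m + 1)) * psi (m + 1) = psi (m + 1) + v * psi m := by
  have h : v ^ (2 * (m + 1)) - 1 ≠ 0 := v_pow_sub_one_ne (by omega)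
  have e : psi (m + 1) * (v ^ (2 * (m + 1)) - 1) = v * psi m := by
    unfold psi
    rw [prod_range_succ]
    field_simp
  linear_combination e

/-- Logarithmic coefficients of `Ψ`. -/
def ell (m : ℕ) : K := (-1) ^ (m - 1) / (v ^ m - (v ^ m)⁻¹)

theorem ell_mul {m : ℕ} (hm : m ≠ 0) : (v ^ (2 * m) - 1) * ell m = (-1) ^ (m - 1) * v ^ m := by
  have h : v ^ (2 * m) - 1 ≠ 0 := v_pow_sub_one_ne (by omega)
  have hv : v ^ m ≠ 0 := pow_ne_zero _ v_ne_zero
  have e : v ^ m - (v ^ m)⁻¹ = (v ^ (2 * m) - 1) / v ^ m := by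
    field_simp
    ring
  unfold ell
  rw [e]
  field_simp

theorem ell_aux (m : ℕ) : ∑ i ∈ range (m + 1),
    psi i * v ^ (2 * i) * ((-1) ^ (m - i) * v ^ (m + 1 - i)) = v * psi m := by
  induction m with
  | zero => simp [psi_zero]
  | succ m ih =>
    rw [sum_range_succ]
    have e : ∑ i ∈ range (m + 1),
        psi i * v ^ (2 * i) * ((-1) ^ (m + 1 - i) * v ^ (m + 1 + 1 - i)) =
        -v * ∑ i ∈ range (m + 1), psi i * v ^ (2 * i) * ((-1) ^ (m - i) * v ^ (m + 1 - i)) := by
      rw [mul_sum]
      refine sum_congr rfl fun i hi => ?_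
      rw [mem_range] at hi
      have e1 : m + 1 - i = (m - i) + 1 := by omega
      have e2 : m + 1 + 1 - i = (m + 1 - i) + 1 := by omega
      rw [e2, e1, pow_succ, pow_succ v]
      ring
    rw [e, ih]
    have e3 : m + 1 - (m + 1) = 0 := by omega
    have e4 : m + 1 + 1 - (m + 1) = 1 := by omega
    rw [e3, e4]
    linear_combination v * psi_succ m

/-- `x Ψ'(x) = Ψ(x) L(x)`. -/
theorem psi_logder (m : ℕ) : (m : K) * psi m = ∑ i ∈ range m, psi i * ell (m - i) := by
  induction m with
  | zero => simp
  | succ m ih =>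
    have h : v ^ (2 * (m + 1)) - 1 ≠ 0 := v_pow_sub_one_ne (by omega)
    apply mul_left_cancel₀ h
    have e1 : (v ^ (2 * (m + 1)) - 1) * ∑ i ∈ range (m + 1), psi i * ell (m + 1 - i) =
        ∑ i ∈ range (m + 1), psi i * v ^ (2 * i) * ((-1) ^ (m - i) * v ^ (m + 1 - i)) +
          ∑ i ∈ range (m + 1), (v ^ (2 * i) - 1) * psi i * ell (m + 1 - i) := by
      rw [mul_sum, ← sum_add_distrib]
      refine sum_congr rfl fun i hi => ?_
      rw [mem_range] at hi
      have e2 := ell_mul (m := m + 1 - i) (by omega)
      have e3 : m + 1 - i - 1 = m - i := by omega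
      rw [e3] at e2
      have e4 : v ^ (2 * (m + 1)) = v ^ (2 * i) * v ^ (2 * (m + 1 - i)) := by
        rw [← pow_add]
        congr 1
        omega
      rw [e4]
      linear_combination psi i * v ^ (2 * i) * e2
    have e5 : ∑ i ∈ range (m + 1), (v ^ (2 * i) - 1) * psi i * ell (m + 1 - i) =
        v * ∑ i ∈ range m, psi i * ell (m - i) := by
      rw [sum_range_succ', mul_sum]
      simp only [mul_zero, pow_zero, sub_self, zero_mul, add_zero]
      refine sum_congr rfl fun i hi => ?_
      have e6 : m + 1 - (i + 1) = m - i := by omega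
      rw [e6]
      linear_combination ell (m - i) * psi_succ i
    rw [e1, e5, ell_aux, ← ih]
    push_cast
    linear_combination ((m : K) + 1) * psi_succ m

theorem clusterData_single (j : Fin r) {m : ℕ} :
    clusterData (Finsupp.single j m) = ell m := by
  have hd : deg (Finsupp.single j m) = m := by
    unfold deg
    rw [sum_eq_single j]
    · simp
    · intro i _ hi
      simp [Ne.symm hi]
    · simp
  unfold clusterData ell
  rw [if_pos ⟨j, by simp⟩, hd]

theorem deg_add (a b : Fin r →₀ ℕ) : deg (a + b) = deg a + deg b := by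
  unfold deg
  simp [sum_add_distrib]

theorem deg_nsmul (n : ℕ) (b : Fin r →₀ ℕ) : deg (n • b) = n * deg b := by
  unfold deg
  simp [mul_sum]

theorem deg_eq_zero {b : Fin r →₀ ℕ} (h : deg b = 0) : b = 0 := by
  unfold deg at h
  rw [sum_eq_zero_iff] at h
  ext i
  simpa using h i (mem_univ i)

theorem deg_pos {b : Fin r →₀ ℕ} (h : b ≠ 0) : 0 < deg b :=
  Nat.pos_of_ne_zero fun h' => h (deg_eq_zero h')

theorem nsmul_inj_of_ne_zero {b : Fin r →₀ ℕ} (h : b ≠ 0) {i n : ℕ} (e : i • b = n • b) : i = n := by
  have := congrArg deg e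
  rw [deg_nsmul, deg_nsmul] at this
  exact Nat.eq_of_mul_eq_mul_right (deg_pos h) this

/-- A product of a series supported on a ray (up to degree `D`) with any series, on that ray. -/
theorem mul_apply_ray (hB : B.transpose = -B) {D : ℕ} {b : Fin r →₀ ℕ} (hb : b ≠ 0)
    {f L : QSeries B} (hsupp : ∀ a, deg a ≤ D → f a ≠ 0 → ∃ n : ℕ, a = n • b) (n : ℕ)
    (hn : n * deg b ≤ D) :
    (f * L) (n • b) = ∑ i ∈ range (n + 1), f (i • b) * L ((n - i) • b) := by
  classical
  rw [QSeries.mul_apply]
  symm
  refine sum_bij_ne_zero (fun i _ _ => (i • b, (n - i) • b)) ?_ ?_ ?_ ?_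
  · intro i hi _
    rw [mem_range] at hi
    rw [HasAntidiagonal.mem_antidiagonal, ← add_smul]
    congr 1
    omega
  · intro i _ _ i' _ _ h
    rw [Prod.mk.injEq] at h
    exact nsmul_inj_of_ne_zero hb h.1
  · rintro ⟨a, c⟩ hac hne
    rw [HasAntidiagonal.mem_antidiagonal] at hac
    change a + c = n • b at hac
    have hfa : f a ≠ 0 := by
      rintro h
      apply hne
      simp only [h]
      ring
    have hda : deg a ≤ D := by
      have := congrArg deg hac
      rw [deg_add, deg_nsmul] at this
      omega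
    obtain ⟨i, rfl⟩ := hsupp a hda hfa
    have hle : i ≤ n := by
      have := congrArg deg hac
      rw [deg_add, deg_nsmul, deg_nsmul] at this
      exact Nat.le_of_mul_le_mul_right (by omega) (deg_pos hb)
    have hc : c = (n - i) • b := by
      have e : i • b + c = i • b + (n - i) • b := by
        rw [hac, ← add_smul]
        congr 1
        omega
      exact add_left_cancel e
    refine ⟨i, by rw [mem_range]; omega, ?_, by rw [hc]⟩
    intro h
    apply hne
    simp only
    rw [hc]
    linear_combination v ^ omega B (toZ (i • b)) (toZ ((n - i) • b)) * h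
  · intro i _ _
    have h0 : omega B (toZ (i • b)) (toZ ((n - i) • b)) = 0 := by
      have e : ∀ m : ℕ, toZ (m • b) = (m : ℤ) • toZ b := by
        intro m
        funext j
        simp [toZ]
      rw [e, e]
      have h1 := omega_self hB (toZ b)
      unfold omega at h1 ⊢
      have : ∑ x, ∑ y, ((i : ℤ) • toZ b) x * B x y * (((n - i : ℕ) : ℤ) • toZ b) y =
          (i : ℤ) * ((n - i : ℕ) : ℤ) * ∑ x, ∑ y, toZ b x * B x y * toZ b y := by
        rw [mul_sum]
        refine sum_congr rfl fun x _ => ?_
        rw [mul_sum]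
        refine sum_congr rfl fun y _ => ?_
        simp only [Pi.smul_apply, smul_eq_mul]
        ring
      rw [this, h1, mul_zero]
    simp only
    rw [h0, zpow_zero, one_mul]

/-- From the logarithmic derivative on the ray of `b` to the type of the wall function. -/
theorem ray_end (hB : B.transpose = -B) {D : ℕ} {b : Fin r →₀ ℕ} (hb : b ≠ 0)
    (hprim : deg b ≤ D → ∀ (n : ℕ) (c : Fin r →₀ ℕ), n • c = b → n = 1)
    {f L : QSeries B} (h0 : f 0 = 1)
    (hsupp : ∀ a, deg a ≤ D → f a ≠ 0 → ∃ n : ℕ, a = n • b)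
    (hL : f * L = euler f)
    (hdata : ∀ n : ℕ, 1 ≤ n → n * deg b ≤ D → L (n • b) = clusterData (n • b)) :
    PosRay D b f := by
  classical
  have hL0 : L 0 = 0 := by
    have := congrFun hL 0
    rw [QSeries.mul_zero_apply, h0, one_mul] at this
    rw [this]
    simp [euler, deg]
  -- the recursion
  have hrec : ∀ n : ℕ, n * deg b ≤ D →
      ((n * deg b : ℕ) : K) * f (n • b) = ∑ i ∈ range n, f (i • b) * L ((n - i) • b) := by
    intro n hn
    have h1 := congrFun hL (n • b)
    rw [mul_apply_ray hB hb hsupp n hn, sum_range_succ, Nat.sub_self, zero_smul, hL0, mul_zero,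
      add_zero] at h1
    rw [h1]
    simp only [euler, deg_nsmul]
  by_cases hbD : deg b ≤ D
  swap
  · refine ⟨[], by simp, ?_⟩
    intro n hn
    have : n = 0 := by
      by_contra hc
      apply hbD
      calc deg b = 1 * deg b := (one_mul _).symm
        _ ≤ n * deg b := Nat.mul_le_mul_right _ (Nat.one_le_iff_ne_zero.2 hc)
        _ ≤ D := hn
    subst this
    simp [h0]
  by_cases hs : ∃ j, b = Finsupp.single j (b j)
  · obtain ⟨j, hj⟩ := hs
    have hbj : b j = 1 := by
      apply hprim hbD (b j) (Finsupp.single j 1)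
      rw [Finsupp.smul_single, smul_eq_mul, mul_one]
      exact hj.symm
    rw [hbj] at hj
    have hdb : deg b = 1 := by
      rw [hj]
      unfold deg
      rw [sum_eq_single j]
      · simp
      · intro i _ hi
        simp [Ne.symm hi]
      · simp
    have hnb : ∀ n : ℕ, n • b = Finsupp.single j n := by
      intro n
      rw [hj, Finsupp.smul_single, smul_eq_mul, mul_one]
    have hval : ∀ n : ℕ, n ≤ D → f (n • b) = psi n := by
      intro n
      induction n using Nat.strong_induction_on with
      | _ n ih =>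
        intro hn
        rcases Nat.eq_zero_or_pos n with rfl | hpos
        · rw [zero_smul, h0, psi_zero]
        have h1 := hrec n (by rw [hdb]; omega)
        rw [hdb, mul_one] at h1
        have h2 : ∑ i ∈ range n, f (i • b) * L ((n - i) • b) = ∑ i ∈ range n, psi i * ell (n - i) := by
          refine sum_congr rfl fun i hi => ?_
          rw [mem_range] at hi
          rw [ih i hi (by omega), hdata (n - i) (by omega) (by rw [hdb]; omega), hnb,
            clusterData_single]
        rw [h2, ← psi_logder] at h1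
        exact mul_left_cancel₀ (Nat.cast_ne_zero.2 (by omega)) h1
    refine ⟨[(false, 0, 1)], by simp, ?_⟩
    intro n hn
    rw [hdb, mul_one] at hn
    rw [hval n hn]
    simp [unitSeries, epsCoeff]
  · have hns : ∀ n : ℕ, 1 ≤ n → clusterData (n • b) = 0 := by
      intro n hn
      unfold clusterData
      rw [if_neg]
      rintro ⟨j, hj⟩
      apply hs
      refine ⟨j, ?_⟩
      ext i
      have := DFunLike.congr_fun hj i
      simp only [Finsupp.smul_apply, smul_eq_mul, Finsupp.single_apply] at this ⊢
      split_ifs with hi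
      · rw [hi]
      · rw [if_neg hi] at this
        have h3 : n ≠ 0 := by omega
        simpa [h3] using this
    have hval : ∀ n : ℕ, 1 ≤ n → n * deg b ≤ D → f (n • b) = 0 := by
      intro n h1 hn
      have h2 := hrec n hn
      have h3 : ∑ i ∈ range n, f (i • b) * L ((n - i) • b) = 0 := by
        refine sum_eq_zero fun i hi => ?_
        rw [mem_range] at hi
        rw [hdata (n - i) (by omega) (le_trans (Nat.mul_le_mul_right _ (by omega)) hn),
          hns _ (by omega), mul_zero]
      rw [h3] at h2
      have h4 : ((n * deg b : ℕ) : K) ≠ 0 :=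
        Nat.cast_ne_zero.2 (Nat.mul_ne_zero (by omega) (deg_pos hb).ne')
      exact (mul_eq_zero.1 h2).resolve_left h4
    refine ⟨[], by simp, ?_⟩
    intro n hn
    rcases Nat.eq_zero_or_pos n with rfl | hpos
    · simp [h0]
    · rw [hval n hpos hn]
      simp [PowerSeries.coeff_one, hpos.ne']

end

end Vale.Agent.P066.Theta.H370
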